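import Vale.Agent.P275LT.Itw
import Vale.Agent.P275OM.Cb

/-!
# P275, the adjoint family on the character variety is smooth
-/

set_option linter.unusedSectionVars false

open scoped Manifold ContDiff Topology Matrix
open Filter Set
open Vale.Agent.P272.K Vale.Agent.P281Z.Hg Vale.Agent.P275MC Vale.Agent.P275XB P275CC P275CW
open Vale.Agent.P275OM Vale.Agent.P275KU
open Vale.Agent.P281Z (HolA)
open Vale.Agent.P275ST (Rep XB dimR)
open Vale.Agent.P275Z (wv Tup)

noncomputable section

namespace Vale.Agent.P275LT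

variable {d : ℕ} {M : Type} [TopologicalSpace M] [ChartedSpace (Cm d) M]
  [IsManifold 𝓘(ℂ, Cm d) ω M] [Nc M] {x : M} {a b : Type}

theorem sa_ct {F : M → Matrix a b ℂ} (h : SaM d x F) : SaM d x fun y => (F y)ᴴ :=
  fun p q => (h q p).conj

theorem sa_linv [Fintype a] [DecidableEq a] [Fintype b] [DecidableEq b] {F : M → Matrix a b ℂ}
    (h : SaM d x F)
    (hi : Function.Injective (F x).mulVec) : SaM d x fun y => linv (F y) :=
  (((sa_ct h).mul h).inv (det_gram hi)).mul (sa_ct h)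

theorem sa_adj [Fintype a] [DecidableEq a] {F : M → Matrix a a ℂ} (h : SaM d x F)
    (h0 : (F x).det ≠ 0) : SaM d x fun y => adj (F y) :=
  fun p q => (h p.1 q.1).mul (h.inv h0 q.2 p.2)

theorem sa_blk {A : M → Matrix a a ℂ} {B : M → Matrix a b ℂ} {C : M → Matrix b a ℂ}
    {E : M → Matrix b b ℂ} (hA : SaM d x A) (hB : SaM d x B) (hC : SaM d x C) (hE : SaM d x E) :
    SaM d x fun y => Matrix.fromBlocks (A y) (B y) (C y) (E y)
  | .inl p, .inl q => hA p q
  | .inl p, .inr q => hB p q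
  | .inr p, .inl q => hC p q
  | .inr p, .inr q => hE p q

variable {ι : Type} [Fintype ι] {n : ℕ} {ρ : M → ι → P275XB.Mt n}

theorem sa_wd (h : ∀ s, SaM d x fun y => ρ y s) (l : List ι) :
    SaM d x fun y => P275XB.wd (ρ y) l := by
  induction l with
  | nil => exact SaM.const _
  | cons i l ih => simpa only [P275XB.wd_cons] using (h i).mul ih

theorem sa_tau (h : ∀ s, SaM d x fun y => ρ y s) : SaM d x fun y => tau (ρ y) :=
  fun _ _ => sa_wd h _ _ _

theorem sa_hh (h : ∀ s, SaM d x fun y => ρ y s) (hi : Irr (ρ x)) : SaM d x fun y => hh (ρ y) :=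
  have a := sa_tau h
  have b := sa_linv a (tau_inj hi)
  sa_blk ((SaM.const _).sub (a.mul b)) a b (SaM.const _)

theorem sa_big (h : ∀ s, SaM d x fun y => ρ y s) (hi : Irr (ρ x)) {m : M → P275XB.Mt n}
    (hm : SaM d x m) (h0 : (m x).det ≠ 0) : SaM d x fun y => big (ρ y) (m y) :=
  ((sa_hh h hi).mul (sa_blk (SaM.const _) (SaM.const _) (SaM.const _) (sa_adj hm h0))).mul
    (sa_hh h hi)

theorem sa_wv {g : ℕ} {r : M → Tup g n} (h : ∀ s, SaM d x fun y => (r y s).1) (w : Gm g) :
    SaM d x fun y => wv (r y) w := by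
  induction w using FreeGroup.induction_on with
  | C1 => simpa only [P275RL.wv_one] using SaM.const (1 : P275XB.Mt n)
  | of s => simpa only [wv, FreeGroup.lift_apply_of] using h s
  | inv_of s ih => simpa only [P275RL.wv_inv] using ih.inv (P275RL.wv_det_ne _ _)
  | mul u v h1 h2 => simpa only [P275RL.wv_mul] using h1.mul h2

variable {g : ℕ} {e : ℤ} [Ok g n e]

/-- local holomorphic lifts -/
theorem ex_sec (x : XB g n e) : ∃ r : XB g n e → Rep g n e, ∀ᶠ y in 𝓝 x,
    (r y).pt = y ∧ HolA (2 * dimR g n) (dimZ g n) r y := by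
  obtain ⟨ρ, rfl⟩ : ∃ ρ : Rep g n e, ρ.pt = x := Quot.exists_rep x
  obtain ⟨s, -, h2, h3⟩ := (sbm_pt ρ).sec (hol_pt.at ρ)
  exact ⟨s, h3.and h2.near⟩

theorem sa_bg (w : Gm g) (x : XB g n e) : SaM (2 * dimR g n) x fun y => bg y w := by
  obtain ⟨r, h⟩ := ex_sec x
  have k := sa_ep h.self_of_nhds.2
  exact (sa_big k (irr_ep _) (sa_wv k w) (P275RL.wv_det_ne _ _)).congr
    (h.mono fun y hy => (bg_pt _ w).symm.trans (congrArg (fun z => bg z w) hy.1))

/-- **the family is smooth** -/
theorem sm_bg (w : Gm g) (p q : Jx (Fin g × Bool) n) :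
    SmC (2 * dimR g n) fun x : XB g n e => bg x w p q := Sa.smC fun x => sa_bg w x p q

theorem det_bg (x : XB g n e) (w : Gm g) : (bg x w).det ≠ 0 :=
  left_ne_zero_of_mul_eq_one (b := (bg x w⁻¹).det) (by
    rw [← Matrix.det_mul, ← map_mul, mul_inv_cancel, map_one, Matrix.det_one])

variable (g n e) in
/-- the family as a tuple of invertible matrices of smooth functions -/
theorem ex_X : ∃ X : Fin g × Bool → (Matrix (Jx (Fin g × Bool) n) (Jx (Fin g × Bool) n)
    (Sm (2 * dimR g n) (XB g n e)))ˣ, ∀ x s, bg x (FreeGroup.of s) = (X s).1.map (Sm.ev x) := by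
  choose X hX using fun s : Fin g × Bool =>
    exists_unit (sm_bg (n := n) (e := e) (.of s)) fun x => det_bg x _
  exact ⟨X, fun x s => Matrix.ext fun p q => (congrFun (hX s p q) x).symm⟩

end Vale.Agent.P275LT
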