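import Vale.Agent.P275CW.Cwe
import Vale.Agent.P275MM.Cmp
import Vale.Agent.P275DS.Om

/-!
# P275, local lifts on the character variety and smooth intertwiners
-/

set_option linter.unusedSectionVars false

open scoped Manifold ContDiff Topology Matrix ComplexOrder
open Filter Set
open Vale.Agent.P272.K Vale.Agent.P281Z.Hg Vale.Agent.P275MC Vale.Agent.P275XB P275CC P275CW
open Vale.Agent.P281Z (HolA AnV)
open Vale.Agent.P277Z (Hol)
open Vale.Agent.P275ST (Rep XB dimR)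

noncomputable section

namespace Vale.Agent.P275LT

variable {d : ℕ} {M : Type} [TopologicalSpace M] [ChartedSpace (Cm d) M]
  [IsManifold 𝓘(ℂ, Cm d) ω M] [Nc M] {x : M}

/-- kernels of dimension at most one -/
theorem ker_sm {a b : Type} [Fintype a] [Fintype b] [DecidableEq b] {L : M → Matrix a b ℂ}
    (hL : SaM d x L) {v : b → ℂ} (h0 : v ≠ 0) (hk : ∀ k, L x *ᵥ k = 0 → ∃ c : ℂ, k = c • v) :
    ∃ u : M → b → ℂ, (∀ i, Sa d x fun y => u y i) ∧
      ∀ᶠ y in 𝓝 x, ∀ k, L y *ᵥ k = 0 → ∃ c : ℂ, k = c • u y := by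
  let A : M → Matrix (Option a) b ℂ := fun y => .of fun o j => o.elim (star v j) (L y · j)
  have hA : SaM d x A := fun o j => by
    cases o
    · exact Sa.const _
    · exact hL _ j
  have hN := (SaM.const (d := d) (x := x) (A x)ᴴ).mul hA
  have h1 : ((A x)ᴴ * A x).det ≠ 0 := fun e => by
    obtain ⟨k, k0, hk'⟩ := Matrix.exists_mulVec_eq_zero_iff.2 e
    rw [Matrix.conjTranspose_mul_self_mulVec_eq_zero] at hk'
    obtain ⟨c, rfl⟩ := hk k (funext fun i => congrFun hk' (some i))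
    have h2 : star v ⬝ᵥ (c • v) = 0 := congrFun hk' none
    rw [dotProduct_smul, smul_eq_zero, dotProduct_star_self_eq_zero] at h2
    exact k0 (by rw [h2.resolve_right h0, zero_smul])
  let w : Matrix (Option a) Unit ℂ := .of fun o _ => o.elim 1 fun _ => 0
  refine ⟨fun y i => (((A x)ᴴ * A y)⁻¹ * ((A x)ᴴ * w)) i (), fun i =>
    ((hN.inv h1).mul (SaM.const _)) i (), (hN.ev_det h1).mono fun y hy k hk' => ?_⟩
  have h2 : A y *ᵥ k = (star v ⬝ᵥ k) • w *ᵥ fun _ => 1 := funext fun o => by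
    cases o
    · simp [A, w, Matrix.mulVec, dotProduct]
    · simpa [A, w, Matrix.mulVec, dotProduct] using congrFun hk' _
  refine ⟨star v ⬝ᵥ k, ?_⟩
  have h3 : k = ((A x)ᴴ * A y)⁻¹ *ᵥ ((A x)ᴴ *ᵥ (A y *ᵥ k)) := by
    rw [Matrix.mulVec_mulVec, Matrix.mulVec_mulVec, Matrix.mul_assoc,
      Matrix.nonsing_inv_mul _ hy.isUnit, Matrix.one_mulVec]
  conv_lhs => rw [h3, h2, Matrix.mulVec_smul, Matrix.mulVec_smul, Matrix.mulVec_mulVec,
    Matrix.mulVec_mulVec, Matrix.mul_assoc]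
  exact congrArg _ (funext fun i => by simp [Matrix.mulVec, dotProduct])

/-- smooth intertwiners -/
theorem itw_sm {ι : Type} [Fintype ι] {n : ℕ} (hn : n ≠ 0) {ρ ρ' : M → ι → P275XB.Mt n}
    (h1 : ∀ s, SaM d x fun y => ρ y s) (h2 : ∀ s, SaM d x fun y => ρ' y s) (hi : Irr (ρ' x))
    (hc : ∀ᶠ y in 𝓝 x, ∃ g : P275XB.Mt n, g.det ≠ 0 ∧ ∀ s, ρ y s * g = g * ρ' y s) :
    ∃ h : M → P275XB.Mt n, ∀ᶠ y in 𝓝 x, SaM d y h ∧ (h y).det ≠ 0 ∧ ∀ s, ρ y s * h y = h y * ρ' y s := by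
  have : Nonempty (Fin n) := ⟨⟨0, Nat.pos_of_ne_zero hn⟩⟩
  let L : M → Matrix (ι × Fin n × Fin n) (Fin n × Fin n) ℂ := fun y => .of fun p q =>
    (ρ y p.1 * Matrix.single q.1 q.2 1 - Matrix.single q.1 q.2 1 * ρ' y p.1 : P275XB.Mt n)
      p.2.1 p.2.2
  have hL : ∀ y (k : Fin n × Fin n → ℂ), L y *ᵥ k = 0 ↔ ∀ s,
      ρ y s * .of (Function.curry k) = .of (Function.curry k) * ρ' y s := fun y k => by
    have e : ∀ p, (L y *ᵥ k) p = (ρ y p.1 * .of (Function.curry k) -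
        .of (Function.curry k) * ρ' y p.1) p.2.1 p.2.2 := fun p => by
      simp [L, Matrix.mulVec, dotProduct, Matrix.mul_apply, Matrix.single_apply, sub_mul,
        Fintype.sum_prod_type, ite_and, mul_comm]
    exact ⟨fun h s => sub_eq_zero.1 (Matrix.ext fun a b => (e (s, a, b)).symm.trans
      (congrFun h _)), fun h => funext fun p => by rw [e, h, sub_self]; rfl⟩
  have nz : ∀ g : P275XB.Mt n, g.det ≠ 0 → g ≠ 0 := fun g hg e => hg (e ▸ Matrix.det_zero)
  obtain ⟨g, g0, hg⟩ := hc.self_of_nhds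
  obtain ⟨u, hu, k⟩ := ker_sm (d := d) (x := x) (L := L) (v := fun q => g q.1 q.2)
    (fun p q => (((h1 _).mul (SaM.const _)).sub ((SaM.const _).mul (h2 _))) _ _)
    (fun e => nz g g0 (Matrix.ext fun a b => congrFun e (a, b))) fun k hk => by
      obtain ⟨c, e⟩ := hi.schur (g := g⁻¹ * .of (Function.curry k)) fun s => by
        rw [Matrix.mul_assoc, ← (hL x k).1 hk s,
          ← Matrix.nonsing_inv_mul_cancel_left g (ρ' x s) g0.isUnit, ← hg]
        simp only [Matrix.mul_assoc, Matrix.mul_nonsing_inv_cancel_left _ _ g0.isUnit]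
      have e' := congrArg (g * ·) e
      simp only [Matrix.mul_nonsing_inv_cancel_left _ _ g0.isUnit, Matrix.mul_smul,
        Matrix.mul_one] at e'
      exact ⟨c, funext fun q => congrFun₂ e' q.1 q.2⟩
  have hs : SaM d x fun y => Matrix.of (Function.curry (u y)) := fun a b => hu (a, b)
  refine ⟨_, (hs.ev.and (k.and hc)).mono fun y ⟨a1, a2, g, g0, hg⟩ => ⟨a1, ?_⟩⟩
  obtain ⟨c, e⟩ := a2 (fun q => g q.1 q.2) ((hL y _).2 hg)
  have e' : g = c • Matrix.of (Function.curry (u y)) := Matrix.ext fun a b => congrFun e (a, b)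
  have c0 : c ≠ 0 := fun h => nz g g0 (by rw [e', h, zero_smul])
  rw [e'] at g0 hg
  refine ⟨fun h => g0 (by rw [Matrix.det_smul, h, mul_zero]), fun s => ?_⟩
  have := hg s
  rwa [Matrix.mul_smul, Matrix.smul_mul, smul_right_inj c0] at this

theorem sa_hol {f : M → ℂ} (h : ∀ᶠ y in 𝓝 x, Hol d f y) : Sa d x f :=
  sa_of (h.mono fun _ k e he => ((k e he).contDiffAt.restrict_scalars ℝ).of_le le_top)

variable {g n : ℕ} {e : ℤ} [Ok g n e]

instance : Nc (XB g n e) := ⟨inferInstance, inferInstance, inferInstance⟩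

theorem sa_ep {r : M → Rep g n e} (h : HolA d (dimZ g n) r x) (s : Fin g × Bool) :
    SaM d x fun y => ep (r y) s := fun a b =>
  sa_hol (h.near.mono fun _ k => k.hol ((reg_ep s a b).hol _))

variable (g n e) in
/-- **local holomorphic lifts with smooth transitions** -/
theorem ex_lft : ∃ (O : XB g n e → Set (XB g n e)) (r : XB g n e → XB g n e → Rep g n e)
    (h : XB g n e → XB g n e → XB g n e → P275XB.Mt n), (∀ a, IsOpen (O a)) ∧ (∀ a, a ∈ O a) ∧
    (∀ a, ∀ y ∈ O a, (r a y).pt = y ∧ HolA (2 * dimR g n) (dimZ g n) (r a) y) ∧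
    ∀ a b y, y ∈ O a → y ∈ O b → SaM (2 * dimR g n) y (h a b) ∧ (h a b y).det ≠ 0 ∧
      ∀ s, ep (r a y) s * h a b y = h a b y * ep (r b y) s := by
  have h0 : ∀ a : XB g n e, ∃ r : XB g n e → Rep g n e, ∀ᶠ y in 𝓝 a,
      (r y).pt = y ∧ HolA (2 * dimR g n) (dimZ g n) r y := fun a => by
    obtain ⟨ρ, rfl⟩ : ∃ ρ : Rep g n e, ρ.pt = a := Quot.exists_rep a
    obtain ⟨s, -, h2, h3⟩ := (sbm_pt ρ).sec (hol_pt.at ρ)
    exact ⟨s, h3.and h2.near⟩
  choose r hr using h0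
  obtain ⟨V, i, o, m, s, k⟩ := P275MM.star_ref
    (fun a => interior {y | (r a y).pt = y ∧ HolA (2 * dimR g n) (dimZ g n) (r a) y})
    (fun _ => isOpen_interior) (fun a => ⟨a, mem_interior_iff_mem_nhds.2 (hr a)⟩)
    (fun a b W => ∃ h : XB g n e → P275XB.Mt n, ∀ y ∈ W, SaM (2 * dimR g n) y h ∧ (h y).det ≠ 0 ∧
      ∀ s, ep (r a y) s * h y = h y * ep (r b y) s)
    (fun _ _ _ _ ⟨h, f⟩ e => ⟨h, fun y hy => f y (e hy)⟩) (fun _ _ => ⟨0, fun _ a => a.elim⟩)
    fun a b y ha hb => by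
      obtain ⟨h, f⟩ := itw_sm (Ok.hn g e) (sa_ep (interior_subset ha).2)
        (sa_ep (interior_subset hb).2) (irr_ep _) (by
          filter_upwards [mem_interior_iff_mem_nhds.1 ha, mem_interior_iff_mem_nhds.1 hb]
            with z a1 a2
          obtain ⟨P, e⟩ := ((pk g n e).fib _ _).1 (a2.1.trans a1.1.symm)
          refine ⟨P, (Matrix.isUnits_det_units P).ne_zero, fun s => ?_⟩
          rw [e, P275XB.cj, Matrix.mul_assoc, Units.inv_mul, Matrix.mul_one])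
      exact ⟨_, f, h, fun _ a => a⟩
  choose h f using k
  exact ⟨V, fun a => r (i a), h, o, m, fun a y hy => (interior_subset (s a hy) :),
    fun a b y ha hb => f a b y ⟨ha, hb⟩⟩

end Vale.Agent.P275LT
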